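import Claimed.Agent.R254.Gen.Small

/-!
THIS FILE = PACKAGE E254-COVER (row 254, END254-B; architect helper65).  Mathlib only.  Combinatorics in a metric space.
# Tao's covering lemma (sparse families), for a finite set of points.

`Z` finite, `#Z ≤ M`, radii `0 < R_0 ≤ R_1 ≤ ...`, `n ≥ 1`, `D ≥ M^{1/n}`.  Every `z ∈ Z` gets a level `lev z < n`, a centre `ctr z ∈ Z` with
`dist z (ctr z) < 2 R_{lev z}` and a colour `col z < D`, such that DISTINCT centres of the same level `k` and colour are more than `R_{k+1} - R_k` apart.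

PROOF.  `c_k(z) := #{z' ∈ Z : dist z' z < R_k}` (`≥ 1`, `≤ #Z ≤ M`).
`lev z :=` the least `k` with `c_{k+1}(z) ≤ M^{(k+1)/n}` (`Nat.find`; `k = n-1` works since `c_n ≤ M = M^{n/n}`).  Then `c_k(z) ≥ M^{k/n}` for `k = lev z`
(`k = 0`: `c_0 ≥ 1 = M^0`; `k ≥ 1`: minimality).
Fix `k`, `Z_k := {z : lev z = k}`.  Take `W_k ⊆ Z_k` maximal with pairwise distances `≥ 2 R_k` (e.g. a subset of `Z_k` of maximal cardinality in
`Z_k.powerset.filter ..`, or induction on `Z_k`); every `z ∈ Z_k` has a `w ∈ W_k` with `dist z w < 2 R_k` (`z ∈ W_k`: `w = z`): this is `ctr z`.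
Degree: for `w ∈ W_k` let `N(w) := {w' ∈ W_k : dist w w' ≤ R_{k+1} - R_k}`.  The sets `{z' ∈ Z : dist z' w' < R_k}`, `w' ∈ N(w)`, are pairwise disjoint,
have `≥ M^{k/n}` elements and lie in `{z' ∈ Z : dist z' w < R_{k+1}}`, which has `≤ M^{(k+1)/n}` elements; so `#N(w) ≤ M^{1/n} ≤ D`
(`Finset.card_biUnion`, `Real.rpow_add`), and `w ∈ N(w)`.
`er_color` on `W_k` with `adj a b := dist a b ≤ R_{k+1} - R_k` gives the colours; `col z := colour_k (ctr z)`.
-/

set_option autoImplicit false

namespace Claimed.Agent.R254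

/-- a maximal `r`-separated subset of a finite set is an `r`-net. -/
theorem er_cov_maxsep {X : Type*} [MetricSpace X] (Y : Finset X) (r : ℝ) :
    ∃ W ⊆ Y, (∀ a ∈ W, ∀ b ∈ W, a ≠ b → r ≤ dist a b) ∧ ∀ y ∈ Y, 0 < r → ∃ w ∈ W, dist y w < r := by
  classical
  induction Y using Finset.induction_on with
  | empty => exact ⟨∅, Finset.Subset.refl _, by simp, by simp⟩
  | insert y Y' _ ih =>
    obtain ⟨W, hW, hsep, hnet⟩ := ih
    by_cases h : ∃ w ∈ W, dist y w < r
    · refine ⟨W, hW.trans (Finset.subset_insert _ _), hsep, ?_⟩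
      intro x hx hr
      rcases Finset.mem_insert.1 hx with rfl | hx
      · exact h
      · exact hnet x hx hr
    · push Not at h
      refine ⟨insert y W, Finset.insert_subset_insert _ hW, ?_, ?_⟩
      · intro a ha b hb hab
        rcases Finset.mem_insert.1 ha with rfl | ha
        · rcases Finset.mem_insert.1 hb with rfl | hb
          · exact absurd rfl hab
          · exact h b hb
        · rcases Finset.mem_insert.1 hb with hb' | hb'
          · rw [hb', dist_comm]; exact h a ha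
          · exact hsep a ha b hb' hab
      · intro x hx hr
        rcases Finset.mem_insert.1 hx with rfl | hx
        · exact ⟨x, Finset.mem_insert_self _ _, by simpa using hr⟩
        · obtain ⟨w, hw, hd⟩ := hnet x hx hr
          exact ⟨w, Finset.mem_insert_of_mem hw, hd⟩

/-- the degree bound: `2 r`-separated points `w'` within `s - r` of `w`, each with `≥ A` points of `Z` within `r`, while `w` has `≤ A * B` points
within `s`: at most `B` of them. -/
theorem er_cov_degree {X : Type*} [MetricSpace X] [DecidableEq X] (Z W : Finset X) (r s A B : ℝ) (hA : 0 < A)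
    (hsep : ∀ a ∈ W, ∀ b ∈ W, a ≠ b → 2 * r ≤ dist a b)
    (hlow : ∀ a ∈ W, A ≤ ((Z.filter fun z => dist z a < r).card : ℝ)) (w : X)
    (hup : ((Z.filter fun z => dist z w < s).card : ℝ) ≤ A * B) :
    (((W.filter fun b => dist w b ≤ s - r).card : ℕ) : ℝ) ≤ B := by
  have hdisj : ∀ a ∈ (W.filter fun b => dist w b ≤ s - r), ∀ b ∈ (W.filter fun b => dist w b ≤ s - r), a ≠ b →
      Disjoint (Z.filter fun z => dist z a < r) (Z.filter fun z => dist z b < r) := by
    intro a ha b hb hab
    rw [Finset.disjoint_left]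
    intro z hza hzb
    have h1 := (Finset.mem_filter.1 hza).2
    have h2 := (Finset.mem_filter.1 hzb).2
    have h3 := hsep a (Finset.mem_filter.1 ha).1 b (Finset.mem_filter.1 hb).1 hab
    have h4 : dist a b ≤ dist z a + dist z b := by
      rw [dist_comm z a]; exact dist_triangle a z b
    linarith
  have hcard := Finset.card_biUnion hdisj
  have hsub : ((W.filter fun b => dist w b ≤ s - r).biUnion fun a => Z.filter fun z => dist z a < r) ⊆
      Z.filter fun z => dist z w < s := by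
    intro z hz
    obtain ⟨a, ha, hza⟩ := Finset.mem_biUnion.1 hz
    have h1 := Finset.mem_filter.1 hza
    have h2 := (Finset.mem_filter.1 ha).2
    refine Finset.mem_filter.2 ⟨h1.1, ?_⟩
    have h3 : dist z w ≤ dist z a + dist w a := by
      rw [dist_comm w a]; exact dist_triangle z a w
    linarith [h1.2]
  have h1 := Finset.card_le_card hsub
  rw [hcard] at h1
  have h2 : (((W.filter fun b => dist w b ≤ s - r).card : ℕ) : ℝ) * A ≤
      ((∑ a ∈ W.filter fun b => dist w b ≤ s - r, (Z.filter fun z => dist z a < r).card : ℕ) : ℝ) := by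
    push_cast
    have := Finset.card_nsmul_le_sum (W.filter fun b => dist w b ≤ s - r)
      (fun a => ((Z.filter fun z => dist z a < r).card : ℝ)) A
      (fun a ha => hlow a (Finset.mem_filter.1 ha).1)
    simpa [nsmul_eq_mul] using this
  have h3 : ((∑ a ∈ W.filter fun b => dist w b ≤ s - r, (Z.filter fun z => dist z a < r).card : ℕ) : ℝ) ≤
      ((Z.filter fun z => dist z w < s).card : ℝ) := by exact_mod_cast h1
  have h4 : (((W.filter fun b => dist w b ≤ s - r).card : ℕ) : ℝ) * A ≤ B * A := by linarith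
  exact le_of_mul_le_mul_right h4 hA

theorem er_cov_main {X : Type*} [MetricSpace X] (Z : Finset X) (M : ℝ) (hM : (Z.card : ℝ) ≤ M)
    (hM1 : 1 ≤ M) (n : ℕ) (hn : 1 ≤ n) (Rad : ℕ → ℝ) (h0 : 0 < Rad 0)
    (hmono : ∀ k, Rad k ≤ Rad (k + 1)) (D : ℕ) (hD : M ^ ((1 : ℝ) / n) ≤ D) :
    ∃ (lev col : X → ℕ) (ctr : X → X),
      (∀ z ∈ Z, lev z < n ∧ col z < D ∧ ctr z ∈ Z ∧ dist z (ctr z) < 2 * Rad (lev z)) ∧
      ∀ z ∈ Z, ∀ z' ∈ Z, lev z = lev z' → col z = col z' → ctr z ≠ ctr z' →
        Rad (lev z + 1) - Rad (lev z) < dist (ctr z) (ctr z') := by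
  classical
  have hMpos : 0 < M := by linarith
  have hnpos : (0 : ℝ) < n := by exact_mod_cast hn
  have hRpos : ∀ k, 0 < Rad k := by
    intro k
    induction k with
    | zero => exact h0
    | succ k ih => exact ih.trans_le (hmono k)
  -- the thresholds
  obtain ⟨E, hE⟩ : ∃ E : ℕ → ℝ, ∀ k, E k = M ^ ((k : ℝ) / n) := ⟨_, fun _ => rfl⟩
  have hE0 : E 0 = 1 := by rw [hE]; simp
  have hEn : E n = M := by rw [hE, div_self hnpos.ne', Real.rpow_one]
  have hEpos : ∀ k, 0 < E k := fun k => by rw [hE]; exact Real.rpow_pos_of_pos hMpos _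
  have hEs : ∀ k, E (k + 1) = E k * M ^ ((1 : ℝ) / n) := fun k => by
    rw [hE, hE, ← Real.rpow_add hMpos]
    congr 1
    push_cast
    ring
  -- the counting function
  obtain ⟨c, hc⟩ : ∃ c : ℕ → X → ℕ, ∀ k z, c k z = (Z.filter fun z' => dist z' z < Rad k).card :=
    ⟨_, fun _ _ => rfl⟩
  have hcM : ∀ k z, (c k z : ℝ) ≤ M := fun k z => by
    rw [hc]
    exact le_trans (by exact_mod_cast Finset.card_filter_le _ _) hM
  have hex : ∀ z, ∃ k, k < n ∧ (c (k + 1) z : ℝ) ≤ E (k + 1) := fun z =>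
    ⟨n - 1, by omega, by rw [show n - 1 + 1 = n by omega, hEn]; exact hcM n z⟩
  obtain ⟨lev, hlev⟩ : ∃ lev : X → ℕ, ∀ z, lev z = Nat.find (hex z) := ⟨_, fun _ => rfl⟩
  have hlev1 : ∀ z, lev z < n ∧ (c (lev z + 1) z : ℝ) ≤ E (lev z + 1) := fun z => by
    rw [hlev]; exact Nat.find_spec (hex z)
  have hlev2 : ∀ z ∈ Z, E (lev z) ≤ (c (lev z) z : ℝ) := by
    intro z hz
    rcases Nat.eq_zero_or_pos (lev z) with h | h
    · rw [h, hE0, hc]
      have : 0 < (Z.filter fun z' => dist z' z < Rad 0).card :=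
        Finset.card_pos.2 ⟨z, Finset.mem_filter.2 ⟨hz, by simpa using h0⟩⟩
      exact_mod_cast this
    · have h1 : lev z - 1 < Nat.find (hex z) := by rw [← hlev]; omega
      have h2 := Nat.find_min (hex z) h1
      rw [not_and, show lev z - 1 + 1 = lev z by omega] at h2
      exact (not_le.1 (h2 (by have := (hlev1 z).1; omega))).le
  -- the nets
  choose W hW1 hW2 hW3 using fun k => er_cov_maxsep (Z.filter fun z => lev z = k) (2 * Rad k)
  have hWZ : ∀ k, ∀ w ∈ W k, w ∈ Z ∧ lev w = k := fun k w hw => Finset.mem_filter.1 (hW1 k hw)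
  -- the colours
  have hdeg : ∀ k, ∀ a ∈ W k,
      ((W k).filter (fun b => b ≠ a ∧ dist a b ≤ Rad (k + 1) - Rad k)).card < D := by
    intro k a ha
    have h1 : ((((W k).filter fun b => dist a b ≤ Rad (k + 1) - Rad k).card : ℕ) : ℝ) ≤ M ^ ((1 : ℝ) / n) := by
      refine er_cov_degree Z (W k) (Rad k) (Rad (k + 1)) (E k) _ (hEpos k) (hW2 k) ?_ a ?_
      · intro b hb
        have := hlev2 b (hWZ k b hb).1
        rw [(hWZ k b hb).2, hc] at this
        exact this
      · have := (hlev1 a).2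
        rw [(hWZ k a ha).2, hc, hEs] at this
        exact this
    have h2 : ((W k).filter fun b => dist a b ≤ Rad (k + 1) - Rad k).card ≤ D := by
      exact_mod_cast h1.trans hD
    have h3 : ((W k).filter (fun b => b ≠ a ∧ dist a b ≤ Rad (k + 1) - Rad k)) =
        ((W k).filter fun b => dist a b ≤ Rad (k + 1) - Rad k).erase a := by
      ext b
      simp only [Finset.mem_filter, Finset.mem_erase]
      tauto
    have h4 : a ∈ (W k).filter fun b => dist a b ≤ Rad (k + 1) - Rad k :=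
      Finset.mem_filter.2 ⟨ha, by rw [dist_self]; linarith [hmono k]⟩
    rw [h3, Finset.card_erase_of_mem h4]
    have := Finset.card_pos.2 ⟨a, h4⟩
    omega
  choose colr hcol1 hcol2 using fun k => er_color (W k) (fun a b => dist a b ≤ Rad (k + 1) - Rad k)
    (fun a b h => by rw [dist_comm]; exact h) D (by
      intro a ha
      convert hdeg k a ha)
  -- the centres
  have hctr : ∀ z ∈ Z, ∃ w, w ∈ W (lev z) ∧ dist z w < 2 * Rad (lev z) := by
    intro z hz
    obtain ⟨w, hw, hd⟩ := hW3 (lev z) z (Finset.mem_filter.2 ⟨hz, rfl⟩) (by linarith [hRpos (lev z)])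
    exact ⟨w, hw, hd⟩
  obtain ⟨ctr, hctr'⟩ : ∃ ctr : X → X, ∀ z ∈ Z, ctr z ∈ W (lev z) ∧ dist z (ctr z) < 2 * Rad (lev z) :=
    ⟨fun z => if h : ∃ w, w ∈ W (lev z) ∧ dist z w < 2 * Rad (lev z) then h.choose else z, fun z hz => by
      simp only [dif_pos (hctr z hz)]
      exact (hctr z hz).choose_spec⟩
  refine ⟨lev, fun z => colr (lev z) (ctr z), ctr, ?_, ?_⟩
  · intro z hz
    exact ⟨(hlev1 z).1, hcol1 _ _ (hctr' z hz).1, (hWZ _ _ (hctr' z hz).1).1, (hctr' z hz).2⟩
  · intro z hz z' hz' hl hcol hne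
    by_contra hcon
    have h1 := (hctr' z hz).1
    have h2 := (hctr' z' hz').1
    rw [← hl] at h2
    simp only [← hl] at hcol
    exact hcol2 (lev z) (ctr z) h1 (ctr z') h2 hne (not_lt.1 hcon) hcol

end Claimed.Agent.R254
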