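import Mathlib

/-!
THIS FILE = PACKAGE E254-SCHUR (row 254, END254-B; architect helper65).  Mathlib only, no paper.
# `TT*` + Schur test for a bounded kernel between finite measure spaces.

`T g (z) = ∫ k(z,y) g(y) dν(y)`,  Gram kernel `L(z,z') = ∫ k(z,y) conj k(z',y) dν(y)`.
If `∫ |L(z,z')| dζ(z') ≤ A` for a.e. `z`, then `∫ |T g|² dζ ≤ A ∫ |g|² dν`.

PLAN (all functions are bounded and measurable on finite measure spaces, hence integrable; work with Bochner integrals, convert at the end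
with `ofReal_integral_eq_lintegral_ofReal` / `integral_eq_lintegral_of_nonneg_ae`).
`u := T g` (bounded by `Bk * Bg * ν univ`, measurable: `StronglyMeasurable.integral_prod_right`), `X := ∫ |u|² dζ`.
1. `X = ∫_z conj(u z) ∫_y k z y g y = ∫_y g y * conj (P y)`, `P y := ∫_z u z * conj (k z y) dζ`   (`integral_integral_swap`).
2. Cauchy-Schwarz (`integral_mul_le_Lp_mul_Lq_of_nonneg` with `p = q = 2`, or the discriminant trick): `X² ≤ (∫|g|²) (∫|P|²)`.
3. `∫_y |P y|² = ∫_z ∫_z' u z conj(u z') conj(L z z')` (Fubini twice), so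
   `∫|P|² ≤ ∫∫ |u z| |u z'| |L z z'| ≤ ∫∫ (|u z|² + |u z'|²)/2 |L z z'| = ∫_z |u z|² ∫_z' |L z z'| ≤ A X`   (`|L z z'| = |L z' z|`, swap).
4. `X² ≤ (∫|g|²) A X`, `X < ∞`, hence `X ≤ A ∫|g|²`.
-/

set_option autoImplicit false

namespace Claimed.Agent.R254

open MeasureTheory
open scoped ENNReal ComplexConjugate

/-- bounded measurable functions on finite measure spaces are integrable. -/
theorem er_integrable_bdd {α : Type*} [MeasurableSpace α] (μ : Measure α) [IsFiniteMeasure μ] {f : α → ℂ}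
    (hf : Measurable f) {C : ℝ} (hC : ∀ x, ‖f x‖ ≤ C) : Integrable f μ :=
  Integrable.of_bound hf.aestronglyMeasurable C (Filter.Eventually.of_forall hC)

/-- `‖∫ conj f f‖ₑ = ∫⁻ ‖f‖ₑ²`. -/
theorem er_enorm_integral_conj_mul {α : Type*} [MeasurableSpace α] (μ : Measure α) [IsFiniteMeasure μ]
    {f : α → ℂ} (hf : Measurable f) {C : ℝ} (hC : ∀ x, ‖f x‖ ≤ C) :
    ‖∫ x, conj (f x) * f x ∂μ‖ₑ = ∫⁻ x, ‖f x‖ₑ ^ (2 : ℝ) ∂μ := by
  have e : ∀ x, conj (f x) * f x = ((‖f x‖ ^ 2 : ℝ) : ℂ) := fun x => by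
    rw [Complex.conj_mul']; push_cast; ring
  simp_rw [e]
  have e2 : ∫ x, ((‖f x‖ ^ 2 : ℝ) : ℂ) ∂μ = ((∫ x, ‖f x‖ ^ 2 ∂μ : ℝ) : ℂ) := integral_ofReal
  rw [e2]
  have h0 : 0 ≤ ∫ x, ‖f x‖ ^ 2 ∂μ := integral_nonneg fun x => by positivity
  have hC0 : ∀ x, ‖‖f x‖ ^ 2‖ ≤ C ^ 2 := fun x => by
    rw [Real.norm_of_nonneg (by positivity)]
    exact pow_le_pow_left₀ (norm_nonneg _) (hC x) 2
  have hi : Integrable (fun x => ‖f x‖ ^ 2) μ :=
    Integrable.of_bound (hf.norm.pow_const 2).aestronglyMeasurable (C ^ 2) (Filter.Eventually.of_forall hC0)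
  rw [← ofReal_norm, Complex.norm_real, Real.norm_of_nonneg h0,
    ofReal_integral_eq_lintegral_ofReal hi (Filter.Eventually.of_forall fun x => by positivity)]
  refine lintegral_congr fun x => ?_
  rw [ENNReal.ofReal_pow (norm_nonneg _), ofReal_norm, ENNReal.rpow_two]

/-- the adjoint identity. -/
theorem er_adjoint {Z Y : Type*} [MeasurableSpace Z] [MeasurableSpace Y] (ζ : Measure Z) (ν : Measure Y) [IsFiniteMeasure ζ] [IsFiniteMeasure ν] (k : Z → Y → ℂ)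
    (hk : Measurable (Function.uncurry k)) (Bk : ℝ) (hBk : ∀ z y, ‖k z y‖ ≤ Bk)
    {u : Z → ℂ} (hu : Measurable u) {Bu : ℝ} (hBu : ∀ z, ‖u z‖ ≤ Bu)
    {g : Y → ℂ} (hg : Measurable g) {Bg : ℝ} (hBg : ∀ y, ‖g y‖ ≤ Bg) :
    ∫ z, u z * conj (∫ y, k z y * g y ∂ν) ∂ζ = ∫ y, conj (g y) * (∫ z, conj (k z y) * u z ∂ζ) ∂ν := by
  have h1 : ∀ z, u z * conj (∫ y, k z y * g y ∂ν) = ∫ y, u z * (conj (k z y) * conj (g y)) ∂ν := by
    intro z
    rw [← integral_conj, ← integral_const_mul]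
    simp only [map_mul]
  have h2 : ∀ y, conj (g y) * (∫ z, conj (k z y) * u z ∂ζ) = ∫ z, u z * (conj (k z y) * conj (g y)) ∂ζ := by
    intro y
    rw [← integral_const_mul]
    congr 1
    funext z
    ring
  simp_rw [h1, h2]
  apply integral_integral_swap
  have hm : Measurable (Function.uncurry fun z y => u z * (conj (k z y) * conj (g y))) := by
    have hk' : Measurable fun p : Z × Y => k p.1 p.2 := hk
    have c : Measurable (fun w : ℂ => conj w) := Complex.continuous_conj.measurable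
    exact (hu.comp measurable_fst).mul ((c.comp hk').mul (c.comp (hg.comp measurable_snd)))
  refine er_integrable_bdd _ hm (C := Bu * (Bk * Bg)) ?_
  rintro ⟨z, y⟩
  simp only [Function.uncurry, norm_mul, RCLike.norm_conj]
  have := norm_nonneg (u z)
  have := norm_nonneg (k z y)
  have := norm_nonneg (g y)
  exact mul_le_mul (hBu z) (mul_le_mul (hBk z y) (hBg y) (by positivity) (by linarith [hBk z y]))
    (by positivity) (by linarith [hBu z])

/-- measurability and bound of `T g`. -/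
theorem er_T_meas {Z Y : Type*} [MeasurableSpace Z] [MeasurableSpace Y] (ν : Measure Y) [IsFiniteMeasure ν] (k : Z → Y → ℂ)
    (hk : Measurable (Function.uncurry k)) {g : Y → ℂ} (hg : Measurable g) :
    Measurable fun z => ∫ y, k z y * g y ∂ν := by
  have hm : Measurable (Function.uncurry fun z y => k z y * g y) := by
    have hk' : Measurable fun p : Z × Y => k p.1 p.2 := hk
    exact hk'.mul (hg.comp measurable_snd)
  exact (hm.stronglyMeasurable.integral_prod_right).measurable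

theorem er_T_bdd {Z Y : Type*} [MeasurableSpace Y] (ν : Measure Y) [IsFiniteMeasure ν] (k : Z → Y → ℂ) (Bk : ℝ) (hBk : ∀ z y, ‖k z y‖ ≤ Bk)
    {g : Y → ℂ} {Bg : ℝ} (hBg : ∀ y, ‖g y‖ ≤ Bg) (z : Z) :
    ‖∫ y, k z y * g y ∂ν‖ ≤ |Bk| * |Bg| * ν.real Set.univ := by
  apply norm_integral_le_of_norm_le_const
  refine Filter.Eventually.of_forall fun y => ?_
  rw [norm_mul]
  exact mul_le_mul ((hBk z y).trans (le_abs_self _)) ((hBg y).trans (le_abs_self _)) (norm_nonneg _) (abs_nonneg _)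

/-- the Schur step, in `ℝ≥0∞`. -/
theorem er_schur_step {Z : Type*} [MeasurableSpace Z] (ζ : Measure Z) [SFinite ζ] {a : Z → ℝ≥0∞}
    (ha : Measurable a) {l : Z → Z → ℝ≥0∞} (hl : Measurable (Function.uncurry l))
    (hsym : ∀ z z', l z z' = l z' z) {A : ℝ≥0∞} (hA : ∀ᵐ z ∂ζ, ∫⁻ z', l z z' ∂ζ ≤ A) :
    ∫⁻ z, a z * ∫⁻ z', a z' * l z z' ∂ζ ∂ζ ≤ A * ∫⁻ z, a z ^ (2 : ℝ) ∂ζ := by
  have hl' : Measurable fun p : Z × Z => l p.1 p.2 := hl
  have hlz : ∀ z, Measurable (l z) := fun z => hl'.comp (measurable_const.prodMk measurable_id)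
  have hpq : (2 : ℝ).HolderConjugate 2 := by rw [Real.holderConjugate_iff]; norm_num
  have hyoung : ∀ z z', a z * (a z' * l z z')
      ≤ a z ^ (2 : ℝ) / 2 * l z z' + a z' ^ (2 : ℝ) / 2 * l z z' := by
    intro z z'
    have h := ENNReal.young_inequality (a z) (a z') hpq
    have e2 : ENNReal.ofReal 2 = 2 := by simp
    rw [e2] at h
    calc a z * (a z' * l z z') = (a z * a z') * l z z' := by ring
      _ ≤ (a z ^ (2 : ℝ) / 2 + a z' ^ (2 : ℝ) / 2) * l z z' := by gcongr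
      _ = _ := by ring
  have hfirst : ∫⁻ z, ∫⁻ z', a z ^ (2 : ℝ) / 2 * l z z' ∂ζ ∂ζ ≤ A * ∫⁻ z, a z ^ (2 : ℝ) / 2 ∂ζ := by
    rw [← lintegral_const_mul _ ((ha.pow_const _).div_const _)]
    apply lintegral_mono_ae
    filter_upwards [hA] with z hz
    rw [lintegral_const_mul _ (hlz z), mul_comm]
    gcongr
  have hsecond : ∫⁻ z, ∫⁻ z', a z' ^ (2 : ℝ) / 2 * l z z' ∂ζ ∂ζ ≤ A * ∫⁻ z, a z ^ (2 : ℝ) / 2 ∂ζ := by
    rw [lintegral_lintegral_swap]
    · refine le_trans (le_of_eq ?_) hfirst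
      refine lintegral_congr fun z => lintegral_congr fun z' => ?_
      rw [hsym]
    · exact ((((ha.comp measurable_snd).pow_const _).div_const _).mul hl').aemeasurable
  calc ∫⁻ z, a z * ∫⁻ z', a z' * l z z' ∂ζ ∂ζ
      = ∫⁻ z, ∫⁻ z', a z * (a z' * l z z') ∂ζ ∂ζ := by
        refine lintegral_congr fun z => ?_
        exact (lintegral_const_mul _ (show Measurable fun z' => a z' * l z z' from ha.mul (hlz z))).symm
    _ ≤ ∫⁻ z, ∫⁻ z', (a z ^ (2 : ℝ) / 2 * l z z' + a z' ^ (2 : ℝ) / 2 * l z z') ∂ζ ∂ζ :=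
        lintegral_mono fun z => lintegral_mono fun z' => hyoung z z'
    _ = ∫⁻ z, ((∫⁻ z', a z ^ (2 : ℝ) / 2 * l z z' ∂ζ) + ∫⁻ z', a z' ^ (2 : ℝ) / 2 * l z z' ∂ζ) ∂ζ := by
        refine lintegral_congr fun z => ?_
        rw [lintegral_add_left ((hlz z).const_mul _)]
    _ = (∫⁻ z, ∫⁻ z', a z ^ (2 : ℝ) / 2 * l z z' ∂ζ ∂ζ) + ∫⁻ z, ∫⁻ z', a z' ^ (2 : ℝ) / 2 * l z z' ∂ζ ∂ζ := by
        rw [lintegral_add_left]
        exact ((((ha.comp measurable_fst).pow_const _).div_const _).mul hl').lintegral_prod_right'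
    _ ≤ A * ∫⁻ z, a z ^ (2 : ℝ) / 2 ∂ζ + A * ∫⁻ z, a z ^ (2 : ℝ) / 2 ∂ζ := add_le_add hfirst hsecond
    _ = A * ∫⁻ z, a z ^ (2 : ℝ) ∂ζ := by
        rw [← mul_add, ← lintegral_add_left ((ha.pow_const _).div_const _)]
        congr 1
        refine lintegral_congr fun z => ?_
        rw [ENNReal.add_halves]

/-- `X ≤ √G √(A X)`, `X < ∞` ⟹ `X ≤ A G`. -/
theorem er_ennreal_self_bound {X G A : ℝ≥0∞} (hX : X ≠ ⊤)
    (h : X ≤ G ^ (1 / (2 : ℝ)) * (A * X) ^ (1 / (2 : ℝ))) : X ≤ A * G := by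
  by_cases h0 : X = 0
  · rw [h0]; exact zero_le
  have hs0 : X ^ (1 / (2 : ℝ)) ≠ 0 := by
    simp [h0]
  have hst : X ^ (1 / (2 : ℝ)) ≠ ⊤ := ENNReal.rpow_ne_top_of_nonneg (by norm_num) hX
  have e : X = X ^ (1 / (2 : ℝ)) * X ^ (1 / (2 : ℝ)) := by
    rw [← ENNReal.rpow_add _ _ h0 hX]; norm_num
  have h1 : X ^ (1 / (2 : ℝ)) * X ^ (1 / (2 : ℝ)) ≤ (A * G) ^ (1 / (2 : ℝ)) * X ^ (1 / (2 : ℝ)) := by
    calc X ^ (1 / (2 : ℝ)) * X ^ (1 / (2 : ℝ)) = X := e.symm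
      _ ≤ G ^ (1 / (2 : ℝ)) * (A * X) ^ (1 / (2 : ℝ)) := h
      _ = _ := by
        rw [ENNReal.mul_rpow_of_nonneg _ _ (by norm_num), ENNReal.mul_rpow_of_nonneg _ _ (by norm_num)]
        ring
  have h2 : X ^ (1 / (2 : ℝ)) ≤ (A * G) ^ (1 / (2 : ℝ)) := (ENNReal.mul_le_mul_iff_left hs0 hst).1 h1
  exact (ENNReal.rpow_le_rpow_iff (by norm_num)).1 h2

theorem er_tt_schur {Z Y : Type*} [MeasurableSpace Z] [MeasurableSpace Y] (ζ : Measure Z)
    (ν : Measure Y) [IsFiniteMeasure ζ] [IsFiniteMeasure ν] (k : Z → Y → ℂ)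
    (hk : Measurable (Function.uncurry k)) (Bk : ℝ) (hBk : ∀ z y, ‖k z y‖ ≤ Bk) (A : ℝ) (hA : 0 ≤ A)
    (hL : ∀ᵐ z ∂ζ, ∫⁻ z', ‖∫ y, k z y * conj (k z' y) ∂ν‖ₑ ∂ζ ≤ ENNReal.ofReal A)
    (g : Y → ℂ) (hg : Measurable g) (hBg : ∃ B : ℝ, ∀ y, ‖g y‖ ≤ B) :
    ∫⁻ z, ‖∫ y, k z y * g y ∂ν‖ₑ ^ (2 : ℝ) ∂ζ ≤ ENNReal.ofReal A * ∫⁻ y, ‖g y‖ₑ ^ (2 : ℝ) ∂ν := by
  obtain ⟨Bg, hBg⟩ := hBg
  have hk' : Measurable fun p : Z × Y => k p.1 p.2 := hk
  have hcj : Measurable (fun w : ℂ => conj w) := Complex.continuous_conj.measurable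
  -- `u = T g`
  set u : Z → ℂ := fun z => ∫ y, k z y * g y ∂ν with hu
  have hum : Measurable u := er_T_meas ν k hk hg
  have hub : ∀ z, ‖u z‖ ≤ |Bk| * |Bg| * ν.real Set.univ := er_T_bdd ν k Bk hBk hBg
  -- the adjoint kernel and `P = T* u`
  set ks : Y → Z → ℂ := fun y z => conj (k z y) with hks
  have hksm : Measurable (Function.uncurry ks) := hcj.comp (hk'.comp measurable_swap)
  have hksb : ∀ y z, ‖ks y z‖ ≤ Bk := fun y z => by rw [hks]; simpa using hBk z y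
  set P : Y → ℂ := fun y => ∫ z, ks y z * u z ∂ζ with hP
  have hPm : Measurable P := er_T_meas ζ ks hksm hum
  have hPb : ∀ y, ‖P y‖ ≤ |Bk| * |(|Bk| * |Bg| * ν.real Set.univ)| * ζ.real Set.univ :=
    er_T_bdd ζ ks Bk hksb hub
  -- the Gram kernel
  set Lk : Z → Z → ℂ := fun z z' => ∫ y, k z y * conj (k z' y) ∂ν with hLk
  have hLm : Measurable (Function.uncurry Lk) := by
    have hm : Measurable (Function.uncurry fun (p : Z × Z) (y : Y) => k p.1 y * conj (k p.2 y)) := by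
      have h1 : Measurable fun q : (Z × Z) × Y => k q.1.1 q.2 :=
        hk'.comp ((measurable_fst.comp measurable_fst).prodMk measurable_snd)
      have h2 : Measurable fun q : (Z × Z) × Y => k q.1.2 q.2 :=
        hk'.comp ((measurable_snd.comp measurable_fst).prodMk measurable_snd)
      exact h1.mul (hcj.comp h2)
    exact (hm.stronglyMeasurable.integral_prod_right).measurable
  have hLsym : ∀ z z', ‖Lk z z'‖ₑ = ‖Lk z' z‖ₑ := by
    intro z z'
    have : Lk z' z = conj (Lk z z') := by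
      simp only [hLk]
      rw [← integral_conj]
      congr 1
      funext y
      simp [mul_comm]
    rw [this, ← ofReal_norm, ← ofReal_norm, RCLike.norm_conj]
  -- identities
  have E1 : ∫ z, u z * conj (u z) ∂ζ = ∫ y, conj (g y) * P y ∂ν :=
    er_adjoint ζ ν k hk Bk hBk hum hub hg hBg
  have E2 : ∫ z, u z * conj (∫ y, k z y * P y ∂ν) ∂ζ = ∫ y, conj (P y) * P y ∂ν :=
    er_adjoint ζ ν k hk Bk hBk hum hub hPm hPb
  have E3 : ∀ z, ∫ y, k z y * P y ∂ν = ∫ z', u z' * Lk z z' ∂ζ := by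
    intro z
    have h1 : ∀ y, k z y * P y = ∫ z', k z y * (conj (k z' y) * u z') ∂ζ := fun y => by
      rw [hP, ← integral_const_mul]
    have h2 : ∀ z', u z' * Lk z z' = ∫ y, k z y * (conj (k z' y) * u z') ∂ν := fun z' => by
      simp only [hLk]
      rw [← integral_const_mul]
      congr 1
      funext y
      ring
    simp_rw [h1, h2]
    apply integral_integral_swap
    have hm : Measurable (Function.uncurry fun (y : Y) (z' : Z) => k z y * (conj (k z' y) * u z')) := by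
      have a1 : Measurable fun q : Y × Z => k z q.1 := hk'.comp (measurable_const.prodMk measurable_fst)
      have a2 : Measurable fun q : Y × Z => k q.2 q.1 := hk'.comp measurable_swap
      exact a1.mul ((hcj.comp a2).mul (hum.comp measurable_snd))
    refine er_integrable_bdd _ hm (C := |Bk| * (|Bk| * (|Bk| * |Bg| * ν.real Set.univ))) ?_
    rintro ⟨y, z'⟩
    simp only [Function.uncurry, norm_mul, RCLike.norm_conj]
    have b1 := (hBk z y).trans (le_abs_self _)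
    have b2 := (hBk z' y).trans (le_abs_self _)
    exact mul_le_mul b1 (mul_le_mul b2 (hub z') (norm_nonneg _) (abs_nonneg _))
      (by positivity) (abs_nonneg _)
  -- the three quantities
  set X : ℝ≥0∞ := ∫⁻ z, ‖u z‖ₑ ^ (2 : ℝ) ∂ζ with hX
  set G : ℝ≥0∞ := ∫⁻ y, ‖g y‖ₑ ^ (2 : ℝ) ∂ν with hG
  set Q : ℝ≥0∞ := ∫⁻ y, ‖P y‖ₑ ^ (2 : ℝ) ∂ν with hQ
  have hpq : (2 : ℝ).HolderConjugate 2 := by rw [Real.holderConjugate_iff]; norm_num
  have I1 : X ≤ G ^ (1 / (2 : ℝ)) * Q ^ (1 / (2 : ℝ)) := by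
    have e : X = ‖∫ z, u z * conj (u z) ∂ζ‖ₑ := by
      rw [hX, ← er_enorm_integral_conj_mul ζ hum hub]
      congr 2
      funext z
      ring
    rw [e, E1]
    calc ‖∫ y, conj (g y) * P y ∂ν‖ₑ ≤ ∫⁻ y, ‖conj (g y) * P y‖ₑ ∂ν := enorm_integral_le_lintegral_enorm _
      _ = ∫⁻ y, ((fun y => ‖g y‖ₑ) * fun y => ‖P y‖ₑ) y ∂ν := by
        refine lintegral_congr fun y => ?_
        rw [enorm_mul, Pi.mul_apply, ← ofReal_norm (conj (g y)), RCLike.norm_conj, ofReal_norm]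
      _ ≤ _ := ENNReal.lintegral_mul_le_Lp_mul_Lq ν hpq hg.enorm.aemeasurable hPm.enorm.aemeasurable
  have I2 : Q ≤ ENNReal.ofReal A * X := by
    rw [hQ, ← er_enorm_integral_conj_mul ν hPm hPb, ← E2]
    calc ‖∫ z, u z * conj (∫ y, k z y * P y ∂ν) ∂ζ‖ₑ
        ≤ ∫⁻ z, ‖u z * conj (∫ y, k z y * P y ∂ν)‖ₑ ∂ζ := enorm_integral_le_lintegral_enorm _
      _ ≤ ∫⁻ z, ‖u z‖ₑ * ∫⁻ z', ‖u z'‖ₑ * ‖Lk z z'‖ₑ ∂ζ ∂ζ := by
        refine lintegral_mono fun z => ?_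
        rw [enorm_mul, ← ofReal_norm (conj _), RCLike.norm_conj, ofReal_norm, E3 z]
        gcongr
        refine (enorm_integral_le_lintegral_enorm _).trans (le_of_eq ?_)
        refine lintegral_congr fun z' => ?_
        rw [enorm_mul]
      _ ≤ _ := er_schur_step ζ hum.enorm (l := fun z z' => ‖Lk z z'‖ₑ) hLm.enorm hLsym hL
  have hXtop : X ≠ ⊤ := by
    rw [hX, ← er_enorm_integral_conj_mul ζ hum hub]
    exact enorm_ne_top
  apply er_ennreal_self_bound hXtop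
  refine I1.trans ?_
  gcongr

end Claimed.Agent.R254
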