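import Claimed.Agent.R254.Gen.Cover
import Claimed.Agent.R254.Defs

/-!
THIS FILE = PACKAGE E254-COVBD (row 254, END254-B; architect helper65).  Mathlib only.
# From the covering lemma and a bound on sparse families to a bound of a level set.

`u ≥ 0` measurable on `E3`, `U = {u > μ}` is covered by the unit balls around the finite set `Z`, `#Z ≤ M`.  If for every level `k < n` and every
family `W` of at most `M` points which are `(R_{k+1} - R_k)`-separated one has `∑_{a ∈ W} ∫_{B(a, 3 R_k)} u³ ≤ Bd`, then `|U| ≤ n D μ^{-3} Bd`.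

PLAN.  `er_cov_main` gives `lev, col, ctr`.  For `(k,c) ∈ range n ×ˢ range D` put `W_{k,c} := ((Z.filter (lev = k ∧ col = c)).image ctr)`:
`#W_{k,c} ≤ #Z ≤ M` (`Finset.card_image_le`), separated (distinct elements are `ctr z ≠ ctr z'`).
`U ⊆ ⋃_{(k,c)} ⋃_{a ∈ W_{k,c}} (U ∩ ball a (3 R_k))`: `x ∈ U`, `dist x z < 1 ≤ R_k`, `dist z (ctr z) < 2 R_k`.
`measure_biUnion_finset_le` twice; Chebyshev on each ball: `ofReal(μ^3) * vol (U ∩ ball a ϱ) ≤ ∫⁻_{ball a ϱ} u³`
(`mul_meas_ge_le_lintegral` for the restricted measure, or `setLIntegral_mono` + `setLIntegral_const`);  `R_k ≥ R_0 ≥ 1` by `hmono`.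
-/

set_option autoImplicit false

namespace Claimed.Agent.R254

open MeasureTheory Metric Set
open scoped ENNReal

theorem er_cover_bound (u : E3 → ℝ≥0∞) (hu : Measurable u) (μ : ℝ) (hμ : 0 < μ) (Z : Finset E3)
    (hZ : ∀ x, ENNReal.ofReal μ < u x → ∃ z ∈ Z, dist x z < 1)
    (M : ℝ) (hM : (Z.card : ℝ) ≤ M) (hM1 : 1 ≤ M) (n : ℕ) (hn : 1 ≤ n) (Rad : ℕ → ℝ)
    (h0 : 1 ≤ Rad 0) (hmono : ∀ k, Rad k ≤ Rad (k + 1)) (D : ℕ) (hD : M ^ ((1 : ℝ) / n) ≤ D)
    (Bd : ℝ≥0∞)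
    (hsp : ∀ k < n, ∀ W : Finset E3, (W.card : ℝ) ≤ M →
      (∀ a ∈ W, ∀ a' ∈ W, a ≠ a' → Rad (k + 1) - Rad k ≤ dist a a') →
        ∑ a ∈ W, ∫⁻ x in ball a (3 * Rad k), u x ^ (3 : ℝ) ≤ Bd) :
    volume {x | ENNReal.ofReal μ < u x} ≤
      ((n * D : ℕ) : ℝ≥0∞) * (ENNReal.ofReal (μ⁻¹ ^ 3) * Bd) := by
  classical
  obtain ⟨lev, col, ctr, h1, h2⟩ := er_cov_main Z M hM hM1 n hn Rad (by linarith) hmono D hD
  have hR1 : ∀ k, 1 ≤ Rad k := by
    intro k
    induction k with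
    | zero => exact h0
    | succ k ih => exact ih.trans (hmono k)
  obtain ⟨U, hU⟩ : ∃ U : Set E3, U = {x | ENNReal.ofReal μ < u x} := ⟨_, rfl⟩
  rw [← hU]
  obtain ⟨W, hW⟩ : ∃ W : ℕ × ℕ → Finset E3,
      ∀ p, W p = (Z.filter fun z => lev z = p.1 ∧ col z = p.2).image ctr := ⟨_, fun _ => rfl⟩
  have hcov : U ⊆ ⋃ p ∈ (Finset.range n ×ˢ Finset.range D), ⋃ a ∈ W p, (U ∩ ball a (3 * Rad p.1)) := by
    intro x hx
    have hx' : ENNReal.ofReal μ < u x := by rw [hU] at hx; exact hx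
    obtain ⟨z, hz, hd⟩ := hZ x hx'
    obtain ⟨a1, a2, a3, a4⟩ := h1 z hz
    simp only [Set.mem_iUnion]
    refine ⟨(lev z, col z), Finset.mem_product.2 ⟨Finset.mem_range.2 a1, Finset.mem_range.2 a2⟩,
      ctr z, ?_, hx, ?_⟩
    · rw [hW]
      exact Finset.mem_image_of_mem ctr (Finset.mem_filter.2 ⟨hz, rfl, rfl⟩)
    · rw [mem_ball]
      have := dist_triangle x z (ctr z)
      have := hR1 (lev z)
      show dist x (ctr z) < 3 * Rad (lev z)
      linarith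
  have hpow : ENNReal.ofReal (μ ^ 3) = (ENNReal.ofReal μ) ^ (3 : ℝ) := by
    rw [ENNReal.ofReal_rpow_of_pos hμ]
    congr 1
    norm_cast
  have hcheb : ∀ (a : E3) (ϱ : ℝ), ENNReal.ofReal (μ ^ 3) * volume (U ∩ ball a ϱ) ≤
      ∫⁻ x in ball a ϱ, u x ^ (3 : ℝ) := by
    intro a ϱ
    have hm : Measurable fun x => u x ^ (3 : ℝ) := hu.pow_const _
    have h3 := mul_meas_ge_le_lintegral (μ := volume.restrict (ball a ϱ)) hm (ENNReal.ofReal (μ ^ 3))
    refine le_trans (mul_le_mul_right ?_ _) h3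
    rw [Measure.restrict_apply (measurableSet_le measurable_const hm)]
    refine measure_mono (Set.inter_subset_inter_left _ ?_)
    intro x hx
    rw [hU] at hx
    show ENNReal.ofReal (μ ^ 3) ≤ u x ^ (3 : ℝ)
    rw [hpow]
    exact ENNReal.rpow_le_rpow (le_of_lt hx) (by norm_num)
  have hsum : ∀ p ∈ (Finset.range n ×ˢ Finset.range D),
      ∑ a ∈ W p, ∫⁻ x in ball a (3 * Rad p.1), u x ^ (3 : ℝ) ≤ Bd := by
    intro p hp
    have hp1 := Finset.mem_range.1 (Finset.mem_product.1 hp).1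
    refine hsp p.1 hp1 (W p) ?_ ?_
    · rw [hW]
      refine le_trans ?_ hM
      exact_mod_cast Finset.card_image_le.trans (Finset.card_filter_le _ _)
    · intro a ha a' ha' hne
      rw [hW] at ha ha'
      obtain ⟨z, hz, rfl⟩ := Finset.mem_image.1 ha
      obtain ⟨z', hz', rfl⟩ := Finset.mem_image.1 ha'
      obtain ⟨b1, b2, b3⟩ := Finset.mem_filter.1 hz
      obtain ⟨c1, c2, c3⟩ := Finset.mem_filter.1 hz'
      have := h2 z b1 z' c1 (b2.trans c2.symm) (b3.trans c3.symm) hne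
      rw [b2] at this
      exact this.le
  have hvol : volume U ≤ ∑ p ∈ (Finset.range n ×ˢ Finset.range D), ∑ a ∈ W p,
      volume (U ∩ ball a (3 * Rad p.1)) :=
    (measure_mono hcov).trans ((measure_biUnion_finset_le _ _).trans
      (Finset.sum_le_sum fun p _ => measure_biUnion_finset_le _ _))
  have hmain : ENNReal.ofReal (μ ^ 3) * volume U ≤ ((n * D : ℕ) : ℝ≥0∞) * Bd := by
    calc ENNReal.ofReal (μ ^ 3) * volume U
        ≤ ENNReal.ofReal (μ ^ 3) * ∑ p ∈ (Finset.range n ×ˢ Finset.range D), ∑ a ∈ W p,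
            volume (U ∩ ball a (3 * Rad p.1)) := mul_le_mul_right hvol _
      _ = ∑ p ∈ (Finset.range n ×ˢ Finset.range D), ∑ a ∈ W p,
            ENNReal.ofReal (μ ^ 3) * volume (U ∩ ball a (3 * Rad p.1)) := by
          rw [Finset.mul_sum]
          exact Finset.sum_congr rfl fun p _ => Finset.mul_sum _ _ _
      _ ≤ ∑ p ∈ (Finset.range n ×ˢ Finset.range D), Bd :=
          Finset.sum_le_sum fun p hp =>
            (Finset.sum_le_sum fun a _ => hcheb a (3 * Rad p.1)).trans (hsum p hp)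
      _ = ((n * D : ℕ) : ℝ≥0∞) * Bd := by
          rw [Finset.sum_const, Finset.card_product, Finset.card_range, Finset.card_range,
            nsmul_eq_mul]
  have hone : ENNReal.ofReal (μ⁻¹ ^ 3) * ENNReal.ofReal (μ ^ 3) = 1 := by
    rw [← ENNReal.ofReal_mul (by positivity), ← mul_pow, inv_mul_cancel₀ hμ.ne', one_pow,
      ENNReal.ofReal_one]
  calc volume U = ENNReal.ofReal (μ⁻¹ ^ 3) * (ENNReal.ofReal (μ ^ 3) * volume U) := by
        rw [← mul_assoc, hone, one_mul]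
    _ ≤ ENNReal.ofReal (μ⁻¹ ^ 3) * (((n * D : ℕ) : ℝ≥0∞) * Bd) := mul_le_mul_right hmain _
    _ = _ := by ring

end Claimed.Agent.R254
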