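import Claimed.Agent.R254.Gen.Schur

/-!
THIS FILE = PACKAGE E254-INTERP (row 254, END254-B; architect helper65).  Mathlib only, no paper.
# Marcinkiewicz by hand between `L² → L²` and `L^∞ → L^∞`, at the exponent `3`.

`T g (z) = ∫ k(z,y) g(y) dν(y)`, `∫ |k(z,y)| dν(y) ≤ Ai` (so `|T g| ≤ Ai sup|g|`), `∫|T g|² ≤ A2 ∫|g|²` for all bounded measurable `g`.
CLAIM `∫ |T g|³ dζ ≤ 24 Ai A2 ∫ |g|³ dν`.

PLAN.  For `λ > 0` split `g = g 1_{|g| ≤ λ} + g 1_{|g| > λ} =: g_λ + g^λ`; `T g = T g_λ + T g^λ` (`integral_add`), `|T g_λ| ≤ Ai λ` a.e., so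
`{|T g| > 2 Ai λ} ⊆ {|T g^λ| > Ai λ}` (mod null) and by Chebyshev (`mul_meas_ge_le_lintegral` / `meas_ge_le_lintegral_div`)
`ζ{|T g| > 2 Ai λ} ≤ (Ai λ)^{-2} A2 ∫_{|g|>λ} |g|²`.
Layer cake `lintegral_rpow_eq_lintegral_meas_lt_mul` (`p = 3`):  `∫ |T g|³ = 3 ∫_0^∞ s² ζ{|T g| > s} ds`; substitute `s = 2 Ai λ`
(`lintegral_comp_mul_left`-type lemma on `Ioi 0`, or apply the layer cake to the function `|T g| / (2 Ai)`):
`∫ |T g|³ = 3 (2 Ai)³ ∫_0^∞ λ² ζ{|T g| > 2 Ai λ} dλ ≤ 24 Ai A2 ∫_0^∞ ∫ 1_{|g|>λ} |g|² dν dλ = 24 Ai A2 ∫ |g|² |g| dν`  (Tonelli, `∫_0^∞ 1_{λ<|g y|} dλ = |g y|`).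
-/

set_option autoImplicit false

namespace Claimed.Agent.R254

open MeasureTheory
open scoped ENNReal ComplexConjugate

/-- the level set estimate of the Marcinkiewicz argument. -/
theorem er_interp_level {Z Y : Type*} [MeasurableSpace Z] [MeasurableSpace Y] (ζ : Measure Z)
    (ν : Measure Y) [IsFiniteMeasure ζ] [IsFiniteMeasure ν] (k : Z → Y → ℂ)
    (hk : Measurable (Function.uncurry k)) (Bk : ℝ) (hBk : ∀ z y, ‖k z y‖ ≤ Bk)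
    (Ai A2 : ℝ) (hAi : 0 < Ai)
    (hi : ∀ᵐ z ∂ζ, ∫⁻ y, ‖k z y‖ₑ ∂ν ≤ ENNReal.ofReal Ai)
    (h2 : ∀ g : Y → ℂ, Measurable g → (∃ B : ℝ, ∀ y, ‖g y‖ ≤ B) →
      ∫⁻ z, ‖∫ y, k z y * g y ∂ν‖ₑ ^ (2 : ℝ) ∂ζ ≤ ENNReal.ofReal A2 * ∫⁻ y, ‖g y‖ₑ ^ (2 : ℝ) ∂ν)
    (g : Y → ℂ) (hg : Measurable g) (hBg : ∃ B : ℝ, ∀ y, ‖g y‖ ≤ B) {t : ℝ} (ht : 0 < t) :
    ENNReal.ofReal (Ai ^ 2) * (ζ {z | t < ‖∫ y, k z y * g y ∂ν‖ / (2 * Ai)} * ENNReal.ofReal (t ^ 2))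
      ≤ ENNReal.ofReal A2 * ∫⁻ y, {y | t < ‖g y‖}.indicator (fun y => ‖g y‖ₑ ^ (2 : ℝ)) y ∂ν := by
  obtain ⟨Bg, hBg⟩ := hBg
  have hk' : Measurable fun p : Z × Y => k p.1 p.2 := hk
  have hkz : ∀ z, Measurable (k z) := fun z => hk'.comp (measurable_const.prodMk measurable_id)
  have hS : MeasurableSet {y | t < ‖g y‖} := measurableSet_lt measurable_const hg.norm
  set gh : Y → ℂ := {y | t < ‖g y‖}.indicator g with hgh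
  set gl : Y → ℂ := {y | t < ‖g y‖}ᶜ.indicator g with hgl
  have hghm : Measurable gh := hg.indicator hS
  have hglm : Measurable gl := hg.indicator hS.compl
  have hghb : ∀ y, ‖gh y‖ ≤ Bg := fun y => (norm_indicator_le_norm_self _ _).trans (hBg y)
  have hglb : ∀ y, ‖gl y‖ ≤ t := by
    intro y
    by_cases hy : y ∈ {y | t < ‖g y‖}ᶜ
    · rw [hgl, Set.indicator_of_mem hy]
      simpa using hy
    · rw [hgl, Set.indicator_of_notMem hy, norm_zero]; exact ht.le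
  have hsplit : ∀ y, g y = gl y + gh y := fun y =>
    (congrFun (Set.indicator_compl_add_self {y | t < ‖g y‖} g) y).symm
  have hint : ∀ (z : Z) (f : Y → ℂ) (C : ℝ), Measurable f → (∀ y, ‖f y‖ ≤ C) →
      Integrable (fun y => k z y * f y) ν := by
    intro z f C hf hC
    refine er_integrable_bdd ν ((hkz z).mul hf) (C := |Bk| * |C|) fun y => ?_
    rw [norm_mul]
    exact mul_le_mul ((hBk z y).trans (le_abs_self _)) ((hC y).trans (le_abs_self _)) (norm_nonneg _)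
      (abs_nonneg _)
  have hT : ∀ z, ∫ y, k z y * g y ∂ν = (∫ y, k z y * gl y ∂ν) + ∫ y, k z y * gh y ∂ν := by
    intro z
    rw [← integral_add (hint z gl t hglm hglb) (hint z gh Bg hghm hghb)]
    congr 1
    funext y
    rw [hsplit y]; ring
  -- the low part
  have hlow : ∀ᵐ z ∂ζ, ‖∫ y, k z y * gl y ∂ν‖ ≤ Ai * t := by
    filter_upwards [hi] with z hz
    have h1 : ‖∫ y, k z y * gl y ∂ν‖ₑ ≤ ENNReal.ofReal (Ai * t) := by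
      calc ‖∫ y, k z y * gl y ∂ν‖ₑ ≤ ∫⁻ y, ‖k z y * gl y‖ₑ ∂ν := enorm_integral_le_lintegral_enorm _
        _ ≤ ∫⁻ y, ‖k z y‖ₑ * ENNReal.ofReal t ∂ν := by
          refine lintegral_mono fun y => ?_
          rw [enorm_mul]
          gcongr
          rw [← ofReal_norm]
          exact ENNReal.ofReal_le_ofReal (hglb y)
        _ = (∫⁻ y, ‖k z y‖ₑ ∂ν) * ENNReal.ofReal t := lintegral_mul_const _ (hkz z).enorm
        _ ≤ ENNReal.ofReal Ai * ENNReal.ofReal t := by gcongr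
        _ = _ := (ENNReal.ofReal_mul hAi.le).symm
    rw [← ofReal_norm] at h1
    exact (ENNReal.ofReal_le_ofReal_iff (by positivity)).1 h1
  -- inclusion of the level sets
  have hincl : ζ {z | t < ‖∫ y, k z y * g y ∂ν‖ / (2 * Ai)}
      ≤ ζ {z | ENNReal.ofReal ((Ai * t) ^ 2) ≤ ‖∫ y, k z y * gh y ∂ν‖ₑ ^ (2 : ℝ)} := by
    apply measure_mono_ae
    filter_upwards [hlow] with z hz hzt
    have hzt' : t < ‖∫ y, k z y * g y ∂ν‖ / (2 * Ai) := hzt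
    rw [lt_div_iff₀ (by positivity), hT z] at hzt'
    have h3 := norm_add_le (∫ y, k z y * gl y ∂ν) (∫ y, k z y * gh y ∂ν)
    have h4 : Ai * t ≤ ‖∫ y, k z y * gh y ∂ν‖ := by nlinarith
    show ENNReal.ofReal ((Ai * t) ^ 2) ≤ ‖∫ y, k z y * gh y ∂ν‖ₑ ^ (2 : ℝ)
    rw [← ofReal_norm, ENNReal.rpow_two, ← ENNReal.ofReal_pow (norm_nonneg _)]
    exact ENNReal.ofReal_le_ofReal (pow_le_pow_left₀ (by positivity) h4 2)
  have hcheb := mul_meas_ge_le_lintegral₀ (μ := ζ)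
    (f := fun z => ‖∫ y, k z y * gh y ∂ν‖ₑ ^ (2 : ℝ))
    (((er_T_meas ν k hk hghm).enorm.pow_const _).aemeasurable) (ENNReal.ofReal ((Ai * t) ^ 2))
  have hgh2 : ∀ y, ‖gh y‖ₑ ^ (2 : ℝ) = {y | t < ‖g y‖}.indicator (fun y => ‖g y‖ₑ ^ (2 : ℝ)) y := by
    intro y
    by_cases hy : y ∈ {y | t < ‖g y‖}
    · rw [hgh, Set.indicator_of_mem hy, Set.indicator_of_mem hy]
    · rw [hgh, Set.indicator_of_notMem hy, Set.indicator_of_notMem hy]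
      simp
  calc ENNReal.ofReal (Ai ^ 2) * (ζ {z | t < ‖∫ y, k z y * g y ∂ν‖ / (2 * Ai)} * ENNReal.ofReal (t ^ 2))
      = ENNReal.ofReal ((Ai * t) ^ 2) * ζ {z | t < ‖∫ y, k z y * g y ∂ν‖ / (2 * Ai)} := by
        rw [mul_pow, ENNReal.ofReal_mul (by positivity)]; ring
    _ ≤ ENNReal.ofReal ((Ai * t) ^ 2) *
          ζ {z | ENNReal.ofReal ((Ai * t) ^ 2) ≤ ‖∫ y, k z y * gh y ∂ν‖ₑ ^ (2 : ℝ)} := by gcongr
    _ ≤ ∫⁻ z, ‖∫ y, k z y * gh y ∂ν‖ₑ ^ (2 : ℝ) ∂ζ := hcheb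
    _ ≤ ENNReal.ofReal A2 * ∫⁻ y, ‖gh y‖ₑ ^ (2 : ℝ) ∂ν := h2 gh hghm ⟨Bg, hghb⟩
    _ = _ := by simp_rw [hgh2]

/-- Tonelli for the layer cake of `|g|³`. -/
theorem er_interp_tonelli {Y : Type*} [MeasurableSpace Y] (ν : Measure Y) [SFinite ν] (g : Y → ℂ)
    (hg : Measurable g) :
    ∫⁻ t in Set.Ioi (0 : ℝ), ∫⁻ y, {y | t < ‖g y‖}.indicator (fun y => ‖g y‖ₑ ^ (2 : ℝ)) y ∂ν
      = ∫⁻ y, ‖g y‖ₑ ^ (3 : ℝ) ∂ν := by
  have hS : MeasurableSet {p : ℝ × Y | p.1 < ‖g p.2‖} :=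
    measurableSet_lt measurable_fst (hg.norm.comp measurable_snd)
  have hm : Measurable (Function.uncurry fun (t : ℝ) (y : Y) =>
      {y | t < ‖g y‖}.indicator (fun y => ‖g y‖ₑ ^ (2 : ℝ)) y) := by
    have e : (Function.uncurry fun (t : ℝ) (y : Y) =>
        {y | t < ‖g y‖}.indicator (fun y => ‖g y‖ₑ ^ (2 : ℝ)) y)
        = {p : ℝ × Y | p.1 < ‖g p.2‖}.indicator (fun p => ‖g p.2‖ₑ ^ (2 : ℝ)) := by
      funext p
      rfl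
    rw [e]
    exact ((hg.comp measurable_snd).enorm.pow_const _).indicator hS
  rw [lintegral_lintegral_swap hm.aemeasurable]
  refine lintegral_congr fun y => ?_
  have e : ∀ t : ℝ, {y | t < ‖g y‖}.indicator (fun y => ‖g y‖ₑ ^ (2 : ℝ)) y
      = (Set.Iio ‖g y‖).indicator (fun _ => ‖g y‖ₑ ^ (2 : ℝ)) t := by
    intro t
    rfl
  simp_rw [e]
  rw [lintegral_indicator measurableSet_Iio, lintegral_const, Measure.restrict_apply MeasurableSet.univ,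
    Set.univ_inter, Measure.restrict_apply measurableSet_Iio, Set.Iio_inter_Ioi, Real.volume_Ioo, sub_zero,
    ofReal_norm]
  have e3 : (3 : ℝ) = 2 + 1 := by norm_num
  rw [e3, ENNReal.rpow_add_of_nonneg _ _ (by norm_num) (by norm_num), ENNReal.rpow_one]

theorem er_interp3 {Z Y : Type*} [MeasurableSpace Z] [MeasurableSpace Y] (ζ : Measure Z)
    (ν : Measure Y) [IsFiniteMeasure ζ] [IsFiniteMeasure ν] (k : Z → Y → ℂ)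
    (hk : Measurable (Function.uncurry k)) (Bk : ℝ) (hBk : ∀ z y, ‖k z y‖ ≤ Bk)
    (Ai A2 : ℝ) (hAi : 0 < Ai) (hA2 : 0 ≤ A2)
    (hi : ∀ᵐ z ∂ζ, ∫⁻ y, ‖k z y‖ₑ ∂ν ≤ ENNReal.ofReal Ai)
    (h2 : ∀ g : Y → ℂ, Measurable g → (∃ B : ℝ, ∀ y, ‖g y‖ ≤ B) →
      ∫⁻ z, ‖∫ y, k z y * g y ∂ν‖ₑ ^ (2 : ℝ) ∂ζ ≤ ENNReal.ofReal A2 * ∫⁻ y, ‖g y‖ₑ ^ (2 : ℝ) ∂ν)
    (g : Y → ℂ) (hg : Measurable g) (hBg : ∃ B : ℝ, ∀ y, ‖g y‖ ≤ B) :
    ∫⁻ z, ‖∫ y, k z y * g y ∂ν‖ₑ ^ (3 : ℝ) ∂ζ ≤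
      ENNReal.ofReal (24 * Ai * A2) * ∫⁻ y, ‖g y‖ₑ ^ (3 : ℝ) ∂ν := by
  set F : Z → ℝ := fun z => ‖∫ y, k z y * g y ∂ν‖ / (2 * Ai) with hF
  have hFm : Measurable F := (er_T_meas ν k hk hg).norm.div_const _
  have hF0 : ∀ z, 0 ≤ F z := fun z => by rw [hF]; positivity
  have hlc := lintegral_rpow_eq_lintegral_meas_lt_mul ζ (Filter.Eventually.of_forall hF0) hFm.aemeasurable
    (p := 3) (by norm_num)
  have e1 : ∀ z, ‖∫ y, k z y * g y ∂ν‖ₑ ^ (3 : ℝ)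
      = ENNReal.ofReal (8 * Ai) * (ENNReal.ofReal (Ai ^ 2) * ENNReal.ofReal (F z ^ (3 : ℝ))) := by
    intro z
    have h : ‖∫ y, k z y * g y ∂ν‖ = 2 * Ai * F z := by rw [hF]; field_simp
    rw [← ofReal_norm, ENNReal.ofReal_rpow_of_nonneg (norm_nonneg _) (by norm_num), h,
      Real.mul_rpow (by positivity) (hF0 z), ← ENNReal.ofReal_mul (by positivity),
      ← ENNReal.ofReal_mul (by positivity)]
    congr 1
    have : (2 * Ai) ^ (3 : ℝ) = (2 * Ai) ^ 3 := by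
      rw [← Real.rpow_natCast]; norm_num
    rw [this]; ring
  simp_rw [e1]
  rw [lintegral_const_mul' _ _ ENNReal.ofReal_ne_top, lintegral_const_mul' _ _ ENNReal.ofReal_ne_top, hlc]
  have hlev : ∫⁻ t in Set.Ioi (0 : ℝ), ENNReal.ofReal (Ai ^ 2) * (ζ {a | t < F a} * ENNReal.ofReal (t ^ ((3 : ℝ) - 1)))
      ≤ ∫⁻ t in Set.Ioi (0 : ℝ), ENNReal.ofReal A2 *
          ∫⁻ y, {y | t < ‖g y‖}.indicator (fun y => ‖g y‖ₑ ^ (2 : ℝ)) y ∂ν := by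
    refine setLIntegral_mono' measurableSet_Ioi fun t ht => ?_
    have e : t ^ ((3 : ℝ) - 1) = t ^ 2 := by
      rw [← Real.rpow_natCast]; norm_num
    rw [e]
    exact er_interp_level ζ ν k hk Bk hBk Ai A2 hAi hi h2 g hg hBg ht
  rw [lintegral_const_mul' _ _ ENNReal.ofReal_ne_top, lintegral_const_mul' _ _ ENNReal.ofReal_ne_top,
    er_interp_tonelli ν g hg] at hlev
  calc ENNReal.ofReal (8 * Ai) * (ENNReal.ofReal (Ai ^ 2) *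
        (ENNReal.ofReal 3 * ∫⁻ t in Set.Ioi (0 : ℝ), ζ {a | t < F a} * ENNReal.ofReal (t ^ ((3 : ℝ) - 1))))
      = ENNReal.ofReal (8 * Ai) * ENNReal.ofReal 3 * (ENNReal.ofReal (Ai ^ 2) *
        ∫⁻ t in Set.Ioi (0 : ℝ), ζ {a | t < F a} * ENNReal.ofReal (t ^ ((3 : ℝ) - 1))) := by ring
    _ ≤ ENNReal.ofReal (8 * Ai) * ENNReal.ofReal 3 * (ENNReal.ofReal A2 * ∫⁻ y, ‖g y‖ₑ ^ (3 : ℝ) ∂ν) := by
        gcongr
    _ = _ := by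
        rw [← mul_assoc, ← ENNReal.ofReal_mul (by positivity), ← ENNReal.ofReal_mul (by positivity)]
        congr 2
        ring

/-- GLUE: `TT*`-Schur + interpolation. -/
theorem er_schur3 {Z Y : Type*} [MeasurableSpace Z] [MeasurableSpace Y] (ζ : Measure Z)
    (ν : Measure Y) [IsFiniteMeasure ζ] [IsFiniteMeasure ν] (k : Z → Y → ℂ)
    (hk : Measurable (Function.uncurry k)) (Bk : ℝ) (hBk : ∀ z y, ‖k z y‖ ≤ Bk)
    (Ai A : ℝ) (hAi : 0 < Ai) (hA : 0 ≤ A)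
    (hi : ∀ᵐ z ∂ζ, ∫⁻ y, ‖k z y‖ₑ ∂ν ≤ ENNReal.ofReal Ai)
    (hL : ∀ᵐ z ∂ζ, ∫⁻ z', ‖∫ y, k z y * conj (k z' y) ∂ν‖ₑ ∂ζ ≤ ENNReal.ofReal A)
    (g : Y → ℂ) (hg : Measurable g) (hBg : ∃ B : ℝ, ∀ y, ‖g y‖ ≤ B) :
    ∫⁻ z, ‖∫ y, k z y * g y ∂ν‖ₑ ^ (3 : ℝ) ∂ζ ≤
      ENNReal.ofReal (24 * Ai * A) * ∫⁻ y, ‖g y‖ₑ ^ (3 : ℝ) ∂ν :=
  er_interp3 ζ ν k hk Bk hBk Ai A hAi hA hi
    (fun g' hg' hB' => er_tt_schur ζ ν k hk Bk hBk A hA hL g' hg' hB') g hg hBg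

end Claimed.Agent.R254
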