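import Mathlib

/-!
THIS FILE = PACKAGE E254-RAD (row 254, END254-B; architect helper65).  Mathlib only.  Elementary real inequalities.
# The radii of the sparse covering.
`R_0 = R₁`, `R_{k+1} = R_k + (1 + M (3 R_k)^6)^4`: the separation `S_k = R_{k+1} - R_k` satisfies `M (3R_k)^6 (1+S_k)^{-1/4} ≤ 1`
(`(1+S)^{1/4} ≥ S^{1/4} = 1 + M (3R_k)^6`; `Real.rpow_natCast`, `Real.rpow_le_rpow_left_iff`, `Real.rpow_neg`), and `R_k` is polynomially bounded in `T`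
if `M = CM * T^q` (induction on `k`: if `R_k ≤ B T^A` with `B ≥ 1`, then `1 + M (3R_k)^6 ≤ (1 + CM 3^6 B^6) T^{q + 6A}`, so
`R_{k+1} ≤ (B + (1 + CM 3^6 B^6)^4) T^{4 (q + 6 A)}` as `A ≤ 4(q+6A)` and `T ≥ 1`).
-/

set_option autoImplicit false

namespace Claimed.Agent.R254

/-- the radii of the covering: `R_0 = R₁`, `R_{k+1} = R_k + (1 + M (3 R_k)^6)^4`. -/
noncomputable def erRad (R₁ M : ℝ) : ℕ → ℝ
  | 0 => R₁
  | k + 1 => erRad R₁ M k + (1 + M * (3 * erRad R₁ M k) ^ 6) ^ 4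

theorem er_rad_mono (R₁ M : ℝ) (k : ℕ) : erRad R₁ M k ≤ erRad R₁ M (k + 1) := by
  rw [erRad]
  have : 0 ≤ (1 + M * (3 * erRad R₁ M k) ^ 6) ^ 4 := by positivity
  linarith

theorem er_rad_mono' (R₁ M : ℝ) {k l : ℕ} (h : k ≤ l) : erRad R₁ M k ≤ erRad R₁ M l := by
  exact monotone_nat_of_le_succ (er_rad_mono R₁ M) h

theorem er_rad_sep {R₁ M : ℝ} (hR : 0 ≤ R₁) (hM : 0 ≤ M) (k : ℕ) :
    M * (3 * erRad R₁ M k) ^ 6 * (1 + (erRad R₁ M (k + 1) - erRad R₁ M k)) ^ (-(1 / 4 : ℝ)) ≤ 1 := by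
  obtain ⟨a, ha⟩ : ∃ a : ℝ, a = M * (3 * erRad R₁ M k) ^ 6 := ⟨_, rfl⟩
  have ha0 : 0 ≤ a := by rw [ha]; positivity
  have e : erRad R₁ M (k + 1) - erRad R₁ M k = (1 + a) ^ 4 := by
    rw [erRad, ha]; ring
  rw [e, ← ha]
  have h1 : (0 : ℝ) ≤ 1 + (1 + a) ^ 4 := by positivity
  rw [Real.rpow_neg h1]
  have h2 : 1 + a ≤ (1 + (1 + a) ^ 4) ^ (1 / 4 : ℝ) := by
    have h3 : ((1 + a) ^ 4) ^ (1 / 4 : ℝ) = 1 + a := by
      have := Real.pow_rpow_inv_natCast (x := 1 + a) (n := 4) (by positivity) (by norm_num)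
      rw [show (1 / 4 : ℝ) = ((4 : ℕ) : ℝ)⁻¹ by norm_num]
      exact this
    calc 1 + a = ((1 + a) ^ 4) ^ (1 / 4 : ℝ) := h3.symm
      _ ≤ (1 + (1 + a) ^ 4) ^ (1 / 4 : ℝ) :=
          Real.rpow_le_rpow (by positivity) (by linarith) (by norm_num)
  have h4 : 0 < (1 + (1 + a) ^ 4) ^ (1 / 4 : ℝ) := by linarith
  rw [← div_eq_mul_inv, div_le_one h4]
  linarith

theorem er_rad_growth {R₁ CM q : ℝ} (hR : 1 ≤ R₁) (hCM : 1 ≤ CM) (hq : 0 ≤ q) (k : ℕ) :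
    ∃ A B : ℝ, 0 < A ∧ 1 ≤ B ∧ ∀ T : ℝ, 1 ≤ T → erRad R₁ (CM * T ^ q) k ≤ B * T ^ A := by
  induction k with
  | zero =>
    refine ⟨1, R₁, one_pos, hR, fun T hT => ?_⟩
    rw [erRad, Real.rpow_one]
    nlinarith
  | succ k ih =>
    obtain ⟨A, B, hA, hB, ih⟩ := ih
    refine ⟨4 * (q + 6 * A), B + (1 + CM * 3 ^ 6 * B ^ 6) ^ 4, by positivity, ?_, fun T hT => ?_⟩
    · have : 0 ≤ (1 + CM * 3 ^ 6 * B ^ 6) ^ 4 := by positivity
      linarith
    · have hT0 : 0 < T := by linarith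
      have hr := ih T hT
      have hr0 : 0 ≤ erRad R₁ (CM * T ^ q) k :=
        le_trans (by rw [erRad]; linarith) (er_rad_mono' R₁ (CM * T ^ q) (Nat.zero_le k))
      have hTA : 0 < T ^ A := Real.rpow_pos_of_pos hT0 _
      have hTq : 0 < T ^ q := Real.rpow_pos_of_pos hT0 _
      have e6 : (T ^ A) ^ 6 = T ^ (6 * A) := by
        rw [← Real.rpow_natCast, ← Real.rpow_mul hT0.le]
        congr 1
        push_cast
        ring
      have e1 : T ^ q * T ^ (6 * A) = T ^ (q + 6 * A) := (Real.rpow_add hT0 _ _).symm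
      have e4 : (T ^ (q + 6 * A)) ^ 4 = T ^ (4 * (q + 6 * A)) := by
        rw [← Real.rpow_natCast, ← Real.rpow_mul hT0.le]
        congr 1
        push_cast
        ring
      have h1 : (1 : ℝ) ≤ T ^ (q + 6 * A) := Real.one_le_rpow hT (by positivity)
      have h6 : (erRad R₁ (CM * T ^ q) k) ^ 6 ≤ B ^ 6 * T ^ (6 * A) := by
        rw [← e6, ← mul_pow]
        exact pow_le_pow_left₀ hr0 hr 6
      have h2 : 1 + CM * T ^ q * (3 * erRad R₁ (CM * T ^ q) k) ^ 6 ≤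
          (1 + CM * 3 ^ 6 * B ^ 6) * T ^ (q + 6 * A) := by
        have h3 : CM * T ^ q * (3 * erRad R₁ (CM * T ^ q) k) ^ 6 ≤ CM * 3 ^ 6 * B ^ 6 * T ^ (q + 6 * A) := by
          rw [← e1, mul_pow]
          calc CM * T ^ q * (3 ^ 6 * erRad R₁ (CM * T ^ q) k ^ 6)
              ≤ CM * T ^ q * (3 ^ 6 * (B ^ 6 * T ^ (6 * A))) := by
                refine mul_le_mul_of_nonneg_left ?_ (by positivity)
                exact mul_le_mul_of_nonneg_left h6 (by positivity)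
            _ = CM * 3 ^ 6 * B ^ 6 * (T ^ q * T ^ (6 * A)) := by ring
        linarith
      have h5 : (1 + CM * T ^ q * (3 * erRad R₁ (CM * T ^ q) k) ^ 6) ^ 4 ≤
          (1 + CM * 3 ^ 6 * B ^ 6) ^ 4 * T ^ (4 * (q + 6 * A)) := by
        rw [← e4, ← mul_pow]
        exact pow_le_pow_left₀ (by positivity) h2 4
      have h7 : T ^ A ≤ T ^ (4 * (q + 6 * A)) :=
        Real.rpow_le_rpow_of_exponent_le hT (by nlinarith)
      rw [erRad]
      calc erRad R₁ (CM * T ^ q) k + (1 + CM * T ^ q * (3 * erRad R₁ (CM * T ^ q) k) ^ 6) ^ 4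
          ≤ B * T ^ (4 * (q + 6 * A)) + (1 + CM * 3 ^ 6 * B ^ 6) ^ 4 * T ^ (4 * (q + 6 * A)) := by
            refine add_le_add (hr.trans ?_) h5
            exact mul_le_mul_of_nonneg_left h7 (by linarith)
        _ = _ := by ring

/-- generates the equation lemmas of the definitions above in this file (rule 6: unique names) -/
theorem er_rad_eqns_cite : True := by
  have := @erRad.eq_1
  have := @erRad.eq_2
  trivial

end Claimed.Agent.R254
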