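import Mathlib

/-!
THIS FILE = PACKAGE E254-SMALL (row 254, END254-B; architect helper65).  Mathlib only, no paper.  Three independent small lemmas.

* `er_holder3`: `|∫ F dτ|³ ≤ τ(univ)² ∫ |F|³ dτ`.   PLAN: if `F` is not a.e.-strongly measurable the integral is `0`.  Otherwise
  `enorm_integral_le_lintegral_enorm`, then `ENNReal.lintegral_mul_le_Lp_mul_Lq` with `p = 3`, `q = 3/2`, second function `1`; cube.
* `er_exists_max_sep`: if all finite `1`-separated subsets of `U` have at most `N` points, one of them is maximal, hence a `1`-net of `U`.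
  PLAN: take `Z` of maximal cardinality (`Nat.findGreatest`, or strong induction on `N - card`); if `x ∈ U` had `dist x z ≥ 1` for all `z ∈ Z`,
  `insert x Z` would be a larger one.
* `er_color`: greedy colouring.  PLAN: `Finset.induction_on W`; for `insert x W'` colour `W'`, the colours of the neighbours of `x` are fewer
  than `D`, pick a free colour in `Finset.range D` (`Finset.exists_mem_notMem_of_card_lt_card`), `Function.update`.
-/

set_option autoImplicit false

namespace Claimed.Agent.R254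

open MeasureTheory
open scoped ENNReal

theorem er_holder3 {α : Type*} [MeasurableSpace α] (τ : Measure α) (F : α → ℂ) :
    ‖∫ t, F t ∂τ‖ₑ ^ (3 : ℝ) ≤ (τ Set.univ) ^ (2 : ℝ) * ∫⁻ t, ‖F t‖ₑ ^ (3 : ℝ) ∂τ := by
  by_cases hF : AEStronglyMeasurable F τ
  · have h1 : ‖∫ t, F t ∂τ‖ₑ ≤ ∫⁻ t, ‖F t‖ₑ ∂τ := enorm_integral_le_lintegral_enorm F
    have hpq : (3 : ℝ).HolderConjugate (3 / 2) := by
      rw [Real.holderConjugate_iff]; norm_num
    have h2 := ENNReal.lintegral_mul_le_Lp_mul_Lq τ hpq hF.enorm (aemeasurable_const (b := (1 : ℝ≥0∞)))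
    simp only [Pi.mul_apply, mul_one, ENNReal.one_rpow, lintegral_const, one_mul] at h2
    calc ‖∫ t, F t ∂τ‖ₑ ^ (3 : ℝ) ≤ ((∫⁻ t, ‖F t‖ₑ ^ (3 : ℝ) ∂τ) ^ (1 / (3 : ℝ)) * τ Set.univ ^ (1 / (3 / 2 : ℝ))) ^ (3 : ℝ) :=
          ENNReal.rpow_le_rpow (h1.trans h2) (by norm_num)
      _ = _ := by
        rw [ENNReal.mul_rpow_of_nonneg _ _ (by norm_num), ← ENNReal.rpow_mul, ← ENNReal.rpow_mul, mul_comm]
        norm_num
  · rw [integral_non_aestronglyMeasurable hF]
    simp

theorem er_exists_max_sep {X : Type*} [MetricSpace X] (U : Set X) (N : ℕ)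
    (h : ∀ Z : Finset X, (↑Z : Set X) ⊆ U → (∀ a ∈ Z, ∀ b ∈ Z, a ≠ b → 1 ≤ dist a b) →
      Z.card ≤ N) :
    ∃ Z : Finset X, (↑Z : Set X) ⊆ U ∧ (∀ a ∈ Z, ∀ b ∈ Z, a ≠ b → 1 ≤ dist a b) ∧
      ∀ x ∈ U, ∃ z ∈ Z, dist x z < 1 := by
  classical
  set s : Set ℕ := {n | ∃ Z : Finset X, (↑Z : Set X) ⊆ U ∧ (∀ a ∈ Z, ∀ b ∈ Z, a ≠ b → 1 ≤ dist a b) ∧
    Z.card = n} with hs
  have hne : s.Nonempty := ⟨0, ∅, by simp, by simp, rfl⟩
  have hbd : BddAbove s := ⟨N, by rintro n ⟨Z, h1, h2, rfl⟩; exact h Z h1 h2⟩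
  obtain ⟨Z, hZU, hZs, hZc⟩ := Nat.sSup_mem hne hbd
  refine ⟨Z, hZU, hZs, fun x hx => ?_⟩
  by_contra hcon
  push Not at hcon
  have hxZ : x ∉ Z := fun hxZ => by
    have := hcon x hxZ
    rw [dist_self] at this
    linarith
  have hmem : (insert x Z).card ∈ s := by
    refine ⟨insert x Z, ?_, ?_, rfl⟩
    · intro y hy
      rw [Finset.coe_insert] at hy
      rcases hy with rfl | hy
      · exact hx
      · exact hZU hy
    · intro a ha b hb hab
      rw [Finset.mem_insert] at ha hb
      rcases ha with rfl | ha <;> rcases hb with rfl | hb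
      · exact absurd rfl hab
      · exact hcon b hb
      · rw [dist_comm]; exact hcon a ha
      · exact hZs a ha b hb hab
  have := le_csSup hbd hmem
  rw [Finset.card_insert_of_notMem hxZ, ← hZc] at this
  omega

open Classical in
theorem er_color {X : Type*} (W : Finset X) (adj : X → X → Prop) (hsymm : ∀ a b, adj a b → adj b a)
    (D : ℕ) (hdeg : ∀ a ∈ W, (W.filter (fun b => b ≠ a ∧ adj a b)).card < D) :
    ∃ col : X → ℕ, (∀ a ∈ W, col a < D) ∧ ∀ a ∈ W, ∀ b ∈ W, a ≠ b → adj a b → col a ≠ col b := by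
  induction W using Finset.induction_on with
  | empty => exact ⟨fun _ => 0, by simp, by simp⟩
  | insert x W' hx ih =>
    obtain ⟨col', hc1, hc2⟩ := ih (fun a ha => lt_of_le_of_lt
      (Finset.card_le_card (Finset.filter_subset_filter _ (Finset.subset_insert x W')))
      (hdeg a (Finset.mem_insert_of_mem ha)))
    set Nb := W'.filter (fun b => b ≠ x ∧ adj x b) with hNb
    have hNbc : (Nb.image col').card < (Finset.range D).card := by
      rw [Finset.card_range]
      refine lt_of_le_of_lt Finset.card_image_le (lt_of_le_of_lt ?_ (hdeg x (Finset.mem_insert_self x W')))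
      exact Finset.card_le_card (Finset.filter_subset_filter _ (Finset.subset_insert x W'))
    obtain ⟨c, hcD, hcN⟩ := Finset.exists_mem_notMem_of_card_lt_card hNbc
    rw [Finset.mem_range] at hcD
    have hfree : ∀ b ∈ W', adj x b → c ≠ col' b := by
      intro b hb hadj hcb
      apply hcN
      rw [Finset.mem_image]
      refine ⟨b, ?_, hcb.symm⟩
      rw [hNb, Finset.mem_filter]
      exact ⟨hb, fun h => hx (h ▸ hb), hadj⟩
    have hne : ∀ b ∈ W', b ≠ x := fun b hb h => hx (h ▸ hb)
    refine ⟨Function.update col' x c, ?_, ?_⟩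
    · intro a ha
      rw [Finset.mem_insert] at ha
      rcases ha with rfl | ha
      · rw [Function.update_self]; exact hcD
      · rw [Function.update_of_ne (hne a ha)]; exact hc1 a ha
    · intro a ha b hb hab hadj
      rw [Finset.mem_insert] at ha hb
      rcases ha with rfl | ha <;> rcases hb with rfl | hb
      · exact absurd rfl hab
      · rw [Function.update_self, Function.update_of_ne (hne b hb)]
        exact hfree b hb hadj
      · rw [Function.update_self, Function.update_of_ne (hne a ha)]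
        exact (hfree a ha (hsymm _ _ hadj)).symm
      · rw [Function.update_of_ne (hne a ha), Function.update_of_ne (hne b hb)]
        exact hc2 a ha b hb hab hadj

end Claimed.Agent.R254
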